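import Vale.Agent.P181.H463.Balance

set_option autoImplicit false

/-!
P181, line MR, block [BAL], combinatorial half: from a column degree which is concentrated on `S`
and balanced there one comes to every flatter one by unit moves, and the dimension only grows.
-/

open MvPolynomial

namespace Vale.Agent.P181.MR.H802

open Vale.Agent.P181.H463

variable {K : Type*} [Field K] [CharZero K] {ρ σ : Type*} [Fintype ρ] [DecidableEq ρ]
  [DecidableEq σ] [Fintype σ]

theorem flat' {H : (σ → ℕ) → Submodule K (MvPolynomial (ρ × σ) K)} (hH : Stable H)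
    (S : Finset σ) (c : σ → ℕ) (h1 : ∀ i, i ∉ S → ∀ j ∈ S, c i ≤ c j) (β : σ → ℕ)
    (hoff : ∀ i, i ∉ S → β i ≤ c i) (hon : ∀ j ∈ S, c j ≤ β j) (hsum : ∑ j, β j = ∑ j, c j) :
    Module.finrank K (H β) ≤ Module.finrank K (H c) := by
  obtain ⟨k, hk⟩ : ∃ k, ∑ j, (β j - c j) = k := ⟨_, rfl⟩
  induction k generalizing β with
  | zero =>
    have h2 : ∀ j, β j ≤ c j := by
      intro j
      have := (Finset.sum_eq_zero_iff.mp hk) j (Finset.mem_univ j)
      omega
    have h3 : β = c := by
      funext j
      by_contra hne
      have hlt : β j < c j := lt_of_le_of_ne (h2 j) hne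
      have : ∑ j, β j < ∑ j, c j :=
        Finset.sum_lt_sum (fun i _ => h2 i) ⟨j, Finset.mem_univ j, hlt⟩
      omega
    rw [h3]
  | succ k ih =>
    obtain ⟨j, hj⟩ : ∃ j, c j < β j := by
      by_contra hno
      push Not at hno
      have : ∑ j, (β j - c j) = 0 :=
        Finset.sum_eq_zero fun j _ => Nat.sub_eq_zero_of_le (hno j)
      omega
    obtain ⟨i, hi⟩ : ∃ i, β i < c i := by
      by_contra hno
      push Not at hno
      have : ∑ j, c j < ∑ j, β j :=
        Finset.sum_lt_sum (fun i _ => hno i) ⟨j, Finset.mem_univ j, hj⟩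
      omega
    have hjS : j ∈ S := by
      by_contra hjS
      have := hoff j hjS
      omega
    have hiS : i ∉ S := by
      intro hiS
      have := hon i hiS
      omega
    have hij : i ≠ j := by
      rintro rfl
      exact hiS hjS
    set d : σ → ℕ := fun s => if s = j then β j - 1 else β s with hd
    have hdc : β = d + Pi.single j 1 := by
      funext s
      by_cases hs : s = j
      · subst hs
        simp only [hd, Pi.add_apply, Pi.single_eq_same, if_true]
        omega
      · simp only [hd, Pi.add_apply, Pi.single_eq_of_ne hs, if_neg hs, add_zero]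
    have hdi : d i = β i := by simp only [hd, if_neg hij]
    have hdj : d j = β j - 1 := by simp only [hd, if_true]
    have h3 := h1 i hiS j hjS
    have hle : d i ≤ d j := by omega
    have hstep := hH.step d hij hle
    rw [← hdc] at hstep
    refine hstep.trans (ih (d + Pi.single i 1) ?_ ?_ ?_ ?_)
    · intro s hs
      have hsj : s ≠ j := fun h => hs (h ▸ hjS)
      by_cases hsi : s = i
      · subst hsi
        simp only [Pi.add_apply, Pi.single_eq_same, hdi]
        omega
      · have := hoff s hs
        simp only [Pi.add_apply, Pi.single_eq_of_ne hsi, add_zero, hd, if_neg hsj]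
        exact this
    · intro s hs
      have hsi : s ≠ i := fun h => hiS (h ▸ hs)
      by_cases hsj : s = j
      · subst hsj
        simp only [Pi.add_apply, Pi.single_eq_of_ne hsi, add_zero, hdj]
        omega
      · have := hon s hs
        simp only [Pi.add_apply, Pi.single_eq_of_ne hsi, add_zero, hd, if_neg hsj]
        exact this
    · rw [← hsum]
      conv_rhs => rw [hdc]
      simp only [Pi.add_apply, Finset.sum_add_distrib, Finset.sum_pi_single', Finset.mem_univ,
        if_true]
    · have e : ∀ s, (d + Pi.single i 1 : σ → ℕ) s - c s + (if s = j then 1 else 0) =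
          β s - c s := by
        intro s
        by_cases hs : s = j
        · subst hs
          simp only [Pi.add_apply, Pi.single_eq_of_ne hij.symm, add_zero, if_true, hdj]
          omega
        · by_cases hsi : s = i
          · subst hsi
            simp only [Pi.add_apply, Pi.single_eq_same, if_neg hs, add_zero, hdi]
            omega
          · simp only [Pi.add_apply, Pi.single_eq_of_ne hsi, if_neg hs, add_zero, hd]
      have h4 := Finset.sum_congr rfl (fun s (_ : s ∈ (Finset.univ : Finset σ)) => e s)
      rw [Finset.sum_add_distrib, Finset.sum_ite_eq' Finset.univ j, if_pos (Finset.mem_univ j),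
        hk] at h4
      omega

/-- From the balanced degree on `S` to a flatter degree. -/
theorem flat {H : (σ → ℕ) → Submodule K (MvPolynomial (ρ × σ) K)} (hH : Stable H)
    (S : Finset σ) (β c : σ → ℕ) (hβ0 : ∀ j, j ∉ S → β j = 0)
    (hβ : ∀ i ∈ S, ∀ j ∈ S, β i ≤ β j + 1) (hsum : ∑ j, c j = ∑ j, β j)
    (h1 : ∀ i, i ∉ S → ∀ j ∈ S, c i ≤ c j) (h2 : ∀ j, S.card * c j ≤ ∑ i, β i) :
    Module.finrank K (H β) ≤ Module.finrank K (H c) := by
  refine flat' hH S c h1 β (fun i hi => by rw [hβ0 i hi]; exact Nat.zero_le _) ?_ hsum.symm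
  intro j hj
  have hS : ∑ i, β i = ∑ i ∈ S, β i := by
    symm
    refine Finset.sum_subset (Finset.subset_univ S) fun i _ hi => hβ0 i hi
  have h3 : ∑ i ∈ S, β i < ∑ _i ∈ S, (β j + 1) :=
    Finset.sum_lt_sum (fun i hi => hβ i hi j hj) ⟨j, hj, Nat.lt_succ_self _⟩
  rw [Finset.sum_const, smul_eq_mul] at h3
  have h4 := h2 j
  rw [hS] at h4
  have h5 : S.card * c j < S.card * (β j + 1) := lt_of_le_of_lt h4 h3
  exact Nat.lt_succ_iff.mp (Nat.lt_of_mul_lt_mul_left h5)

end Vale.Agent.P181.MR.H802
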